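import Crest.Agent.R12.Defs

/-!
Row 12: block interfaces (owner: helper4).  Each `St…` is proved by one block; see notes12/R12.md.
A block owner who finds an interface false or awkward tells helper4 and the consumer at once.
-/

set_option autoImplicit false

namespace Crest.Agent.R12

open Crest.Agent.R17
open scoped ComplexConjugate

open Classical in
/-- Block SW: Siegel–Walfisz for cubic characters with an angular twist. -/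
def StSW : Prop :=
  ∀ l : ℤ, ∃ th c C : ℝ, 0 < th ∧ 0 < c ∧ ∀ (k : O) (x : ℝ), k ≠ 0 → (¬ ∃ m : O, k = m ^ 3) →
    2 ≤ x → nm k ≤ Real.exp (c * Real.log x ^ th) →
    ‖∑ p ∈ (ball x).filter (fun p => Prime p ∧ Prim p), cb k p * al p ^ l‖ ≤
      C * x * Real.exp (-(c * Real.log x ^ th))

/-- Block RA (`StSW → StRam`): Ramaré's trick. -/
def StRam : Prop :=
  ∀ (l : ℤ) (k : ℕ) (C₁ C₂ : ℝ), ∃ Y₀ : ℝ, ∀ (Y B : ℝ) (β : O → ℂ), Y₀ ≤ Y → Y ^ (1 / 4 : ℝ) ≤ B →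
    B ≤ Y → Supp β B (2 * B) → Dv k β → BVS (Real.log Y ^ C₁) k β →
    SWH (fun n => β n * al n ^ l) Y (Real.log Y ^ C₂) (B / Real.log Y ^ C₂)

open Classical in
/-- Block TH: theta sums with a squarefree mark in short intervals. -/
def StI0 : Prop :=
  ∀ (l : ℤ) (ε : ℝ), 0 < ε → ∃ C : ℝ, ∀ (Z a Y : ℝ) (r : O), 2 ≤ Z → Z⁻¹ ≤ a → a ≤ 1 → Z⁻¹ ≤ Y →
    Y ≤ Z → PSq r → nm r ≤ Z →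
    ‖(∑' n : Pr, if r ∣ (n : O) then TC n * al n ^ l * (LW a Y (nm n) : ℂ) else 0) -
        (if l = 0 then ((cP * rho0 / nm r * Y ^ (5 / 6 : ℝ) : ℝ) : ℂ) * LNt a (5 / 6) else 0)‖ ≤
      C * Z ^ ε * (Real.sqrt (Y / nm r) + Real.sqrt (nm r / a ^ 3))

open Classical in
/-- Block T1 (`StI0 → StT1`): the type I estimate. -/
def StT1 : Prop :=
  ∀ l : ℤ, ∃ δ C : ℝ, 0 < δ ∧ ∀ Y a : ℝ, 2 ≤ Y → Y ^ (-(17 / 100) : ℝ) ≤ a → a ≤ 1 →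
    ∑ d ∈ sball (Y ^ (34 / 100 : ℝ)),
      ‖∑' n : Pr, if d ∣ (n : O) then al n ^ l * f0 n * (LW a Y (nm n) : ℂ) else 0‖ ≤
      C * Y ^ (5 / 6 - δ)

/-- Block PO: Poisson summation in the rows, all dual rows. -/
def StPO : Prop :=
  ∀ ν : ℕ, ∃ C : ℝ, ∀ (a A B X : ℝ) (γ : O → ℂ) (φ₁ φ₂ : O → ℝ), 0 < a → a ≤ 1 → 1 ≤ A → 0 < B →
    Supp γ B X → (∀ l, 0 ≤ φ₁ l) → (∀ l, 0 ≤ φ₂ l) →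
    RowBd (fun _ => True) γ X B (B ^ 2 / (a ^ 2 * A)) ν φ₁ φ₂ →
    EN a A γ X ≤ C * ((a * A + Real.sqrt A) * N2 γ X + OD a A B X ν φ₁ φ₂)

/-- Block PO: Poisson summation in the rows, cube rows evaluated. -/
def StPOc : Prop :=
  ∀ ν : ℕ, ∃ C : ℝ, ∀ (a A B X : ℝ) (γ : O → ℂ) (φ₁ φ₂ : O → ℝ), 0 < a → a ≤ 1 → 1 ≤ A → 0 < B →
    Supp γ B X → (∀ l, 0 ≤ φ₁ l) → (∀ l, 0 ≤ φ₂ l) →
    RowBd (fun k => ¬ Cube k) γ X B (B ^ 2 / (a ^ 2 * A)) ν φ₁ φ₂ →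
    ‖(EN a A γ X : ℂ) - MN a A γ X‖ ≤ C * ((a * A + Real.sqrt A + A ^ (2 / 3 : ℝ)) * N2 γ X +
      A ^ (3 / 4 : ℝ) * B ^ (-(1 / 2) : ℝ) * CR γ X + OD a A B X ν φ₁ φ₂)

/-- Block PO: the same for `a = 1` with the remainder of the cube rows on `Re s = 1/20`. -/
def StPOd : Prop :=
  ∀ ν : ℕ, ∃ C : ℝ, ∀ (A B X : ℝ) (γ : O → ℂ) (φ₁ φ₂ : O → ℝ), 1 ≤ A → 0 < B →
    Supp γ B X → (∀ l, 0 ≤ φ₁ l) → (∀ l, 0 ≤ φ₂ l) →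
    RowBd (fun k => ¬ Cube k) γ X B (B ^ 2 / (1 ^ 2 * A)) ν φ₁ φ₂ →
    ‖(EN 1 A γ X : ℂ) - MN 1 A γ X‖ ≤ C * (A * N2 γ X +
      A ^ (19 / 20 : ℝ) * B ^ (-(9 / 10) : ℝ) * CR2 γ X + OD 1 A B X ν φ₁ φ₂)

/-- Block T3 (unconditional): the energy of the model. -/
def StT3 : Prop :=
  ∃ C : ℝ, ∀ (a A B X : ℝ) (γ : O → ℂ), 0 < a → a ≤ 1 → 1 ≤ A → Supp γ B X →
    ‖((∑' x : Pr, LW a A (nm x) * ‖Md γ X x‖ ^ 2 : ℝ) : ℂ) - MN a A γ X‖ ≤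
      C * Real.sqrt A * (∑ b ∈ ball X, ‖γ b‖ * n6 b * dn b) ^ 2

/-- Block LS (`StPO → StLS`): the cubic large sieve. -/
def StLS : Prop :=
  ∀ ε : ℝ, 0 < ε → ∃ C : ℝ, ∀ (K M : ℝ) (S : Finset O) (c : O → ℂ), 1 ≤ K → 1 ≤ M →
    (∀ k ∈ S, PSq k ∧ nm k ≤ K) → Supp c 0 M →
    ∑ k ∈ S, ‖∑ n ∈ ball M, c n * cb k n‖ ^ 2 ≤
      C * (K * M) ^ ε * (K + M + (K * M) ^ (2 / 3 : ℝ)) * N2 c M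

/-- Block AL (`StLS → StLSG`): squarefree rows, bounded coefficients on all primary columns. -/
def StLSG : Prop :=
  ∀ ε : ℝ, 0 < ε → ∃ C : ℝ, ∀ (K M : ℝ) (S : Finset O) (c : O → ℂ), 1 ≤ K → 1 ≤ M →
    (∀ k ∈ S, PSq k ∧ nm k ≤ K) → (∀ n, ‖c n‖ ≤ 1) →
    ∑ k ∈ S, ‖∑ n ∈ pball M, c n * cb k n‖ ^ 2 ≤
      C * (K * M) ^ ε * (K + M + (K * M) ^ (2 / 3 : ℝ)) * M

/-- Block AL (`StLS → StAll`): all rows whose cube-free part has norm `> Q`; no `ε` in the first term. -/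
def StAll : Prop :=
  ∀ ε : ℝ, 0 < ε → ∃ C : ℝ, ∀ (U M Q : ℝ) (S : Finset O) (c : O → ℂ), 1 ≤ U → 1 ≤ M → 1 / 2 ≤ Q →
    (∀ k ∈ S, k ≠ 0 ∧ nm k ≤ U ∧ ∀ k₀ m : O, k = k₀ * m ^ 3 → Q < nm k₀) → Supp c 0 M →
    ∑ k ∈ S, ‖∑ n ∈ ball M, c n * cb k n‖ ^ 2 ≤
      C * (U ^ (1 / 3 : ℝ) * Q ^ (-(3 / 10) : ℝ) * M + (U * M) ^ ε * (U + (U * M) ^ (2 / 3 : ℝ))) * N2 c M

/-- Block AL (`StAll → StAllG`): bounded coefficients on primary columns with a squarefull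
divisor of norm at least `F` (take `F = 1`, `s = 1` for no condition, `Q = 1/2` for all rows). -/
def StAllG : Prop :=
  ∀ ε : ℝ, 0 < ε → ∃ C : ℝ, ∀ (U M F Q : ℝ) (S : Finset O) (c : O → ℂ), 1 ≤ U → 1 ≤ M → 1 ≤ F →
    1 / 2 ≤ Q → (∀ k ∈ S, k ≠ 0 ∧ nm k ≤ U ∧ ∀ k₀ m : O, k = k₀ * m ^ 3 → Q < nm k₀) →
    (∀ n, ‖c n‖ ≤ 1) → (∀ n, c n ≠ 0 → ∃ s : O, Sqfull s ∧ s ∣ n ∧ F ≤ nm s) →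
    ∑ k ∈ S, ‖∑ n ∈ pball M, c n * cb k n‖ ^ 2 ≤ C * (U * M) ^ ε *
      (U + U ^ (1 / 3 : ℝ) * Q ^ (-(3 / 10) : ℝ) * M / F +
        (U * M) ^ (2 / 3 : ℝ) * F ^ (-(2 / 3) : ℝ)) * M

/-- Block AL (`StPO → StAll → StL`): energy over rows in a short interval. -/
def StL : Prop :=
  ∀ ε : ℝ, 0 < ε → ∃ C : ℝ, ∀ (a A B : ℝ) (γ : O → ℂ), 0 < a → a ≤ 1 → 1 ≤ A → 1 / 2 ≤ B →
    Supp γ B (2 * B) →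
    EN a A γ (2 * B) ≤ C * ((a * A + Real.sqrt A) * N2 γ (2 * B) +
      a ^ (1 / 3 : ℝ) * (A * B) ^ (2 / 3 : ℝ) * N2d γ (2 * B) +
      (2 * B / a) ^ ε * (B / a + A ^ (1 / 3 : ℝ) * B * a ^ (-(1 / 3) : ℝ)) * N2 γ (2 * B))

/-- Block DI (`StPOc → StI0 → StT3 → StVar`): the dispersion estimate. -/
def StVar : Prop :=
  ∀ ν k : ℕ, ∃ C : ℝ, ∀ (a A B X : ℝ) (γ : O → ℂ) (φ₁ φ₂ : O → ℝ), 1 ≤ A → 1 ≤ B →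
    (A * B) ^ (-(1 / 1000) : ℝ) ≤ a → a ≤ 1 → B ≤ (A * B) ^ (501 / 1000 : ℝ) →
    X ≤ 2 * (A * B) ^ (1 / 1000 : ℝ) * B → Supp γ B X → Dv k γ → (∀ l, 0 ≤ φ₁ l) → (∀ l, 0 ≤ φ₂ l) →
    RowBd (fun k => ¬ Cube k) γ X B (B ^ 2 / (a ^ 2 * A)) ν φ₁ φ₂ →
    VR a A γ X ≤ C * ((a * A + Real.sqrt A + A ^ (2 / 3 : ℝ)) * N2 γ X +
      A ^ (3 / 4 : ℝ) * B ^ (-(1 / 2) : ℝ) * CR γ X + OD a A B X ν φ₁ φ₂ +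
      A ^ (2 / 3 : ℝ) * B ^ (5 / 3 : ℝ) * (A * B) ^ (-(1 / 100) : ℝ))

/-- Block BI (`StVar → StAll → StL → StBil`): the bilinear estimate away from the barrier. -/
def StBil : Prop :=
  ∀ (η : ℝ) (k : ℕ) (C₃ : ℝ), 0 < η → ∃ C C₂ : ℝ, ∀ (Y a A B : ℝ) (α γ : O → ℂ), 2 ≤ Y →
    Y ^ (-η) ≤ a → a ≤ 1 → 1 ≤ A → 1 ≤ B → A ≤ 4 * B ^ 2 → B ≤ Y ^ (1 / 2 - η) →
    Supp α A (2 * A) → Supp γ B (2 * B) → Dv k α → Dv k γ →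
    SWH γ Y (Real.log Y ^ C₂) (B / Real.log Y ^ C₂) →
    ‖Bil a Y α γ (2 * A) (2 * B)‖ ≤
      C * min (A * B / Y) (Y / (A * B)) * Real.sqrt (a * (A + A ^ (3 / 4 : ℝ) * B ^ (1 / 2 : ℝ))) *
        Real.sqrt (N2 α (2 * A)) * Real.sqrt (N2d γ (2 * B)) + C * Y ^ (5 / 6 : ℝ) / Real.log Y ^ C₃

/-- Block HY (`StPO → StL → StHi`): the bilinear estimate in very short intervals. -/
def StHi : Prop :=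
  ∀ (ρ : ℝ) (k : ℕ), 0 < ρ → ∃ δ C : ℝ, 0 < δ ∧ ∀ (Y a A B : ℝ) (α γ : O → ℂ), 2 ≤ Y →
    Y ^ (-(17 / 100) : ℝ) ≤ a → a ≤ Y ^ (-ρ) → 1 ≤ A → 1 ≤ B → A ≤ 4 * B ^ 2 → B ≤ 4 * A ^ 2 →
    Supp α A (2 * A) → Supp γ B (2 * B) → Dv k α → Dv k γ →
    ‖Bil a Y α γ (2 * A) (2 * B)‖ ≤ C * Y ^ (5 / 6 - δ)

/-- Block HK (`StLSG → StMom`): moments of products of plain sums in non-cube rows. -/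
def StMom : Prop :=
  ∀ (l : ℤ) (r : ℕ) (ε : ℝ), 1 ≤ r → 0 < ε → ∃ C : ℝ, ∀ (Z U : ℝ) (M t : Fin r → ℝ) (S : Finset O),
    2 ≤ Z → 1 ≤ U → U ≤ Z → (∀ i, Z⁻¹ ≤ M i ∧ M i ≤ Z) → (∀ k ∈ S, k ≠ 0 ∧ nm k ≤ U ∧ ¬ Cube k) →
    ∑ k ∈ S, ‖∏ i, PSc l k (M i) (t i)‖ ^ 2 ≤ C * Z ^ ε * (1 + ∑ i, |t i|) ^ C * (∏ i, M i) *
      (U + U ^ r / ∏ i, M i + (U * (U ^ r / ∏ i, M i)) ^ (2 / 3 : ℝ))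

/-- Block HK (unconditional): Pólya–Vinogradov for a plain sum in a non-cube row. -/
def StPV : Prop :=
  ∀ (l : ℤ) (ε : ℝ), 0 < ε → ∃ C : ℝ, ∀ (Z M t : ℝ) (k₀ m : O), 2 ≤ Z → Z⁻¹ ≤ M → M ≤ Z → k₀ ≠ 0 →
    m ≠ 0 → ¬ Cube k₀ → nm (k₀ * m ^ 3) ≤ Z →
    ‖PSc l (k₀ * m ^ 3) M t‖ ≤ C * Z ^ ε * (1 + |t|) ^ C * Real.sqrt (nm (rad k₀))

/-- Block QA (`StVar → StAll → StAllG → StMom → StBa`): one long plain variable at the barrier. -/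
def StBa : Prop :=
  ∀ l : ℤ, ∃ η δ : ℝ, 0 < η ∧ 0 < δ ∧ ∀ k : ℕ, ∃ C : ℝ, ∀ (Y a A M t : ℝ) (α c : O → ℂ), 2 ≤ Y →
    Y ^ (-η) ≤ a → a ≤ 1 → Y ^ (1 / 2 - η) ≤ A → A ≤ Y ^ (1 / 2 + η) → 0 < M →
    Supp α A (2 * A) → Dv k α → Dv k c → (∀ n, c n ≠ 0 → nm n ≤ Y ^ (246 / 1000 : ℝ)) →
    ‖∑ x ∈ ball (2 * A), ∑ n₀ ∈ pball Y, ∑ n ∈ pball Y, α x * c n₀ * pl l M t n *
        f0 (x * n₀ * n) * (LW a Y (nm (x * n₀ * n)) : ℂ)‖ ≤ C * (1 + |t|) ^ C * Y ^ (5 / 6 - δ)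

/-- Block QB (`StPOd → StT3 → StL → StAllG → StMom → StPV → StBa → StBb`): two plain variables at the barrier. -/
def StBb : Prop :=
  ∀ l : ℤ, ∃ η δ : ℝ, 0 < η ∧ 0 < δ ∧ ∀ k : ℕ, ∃ C : ℝ,
    ∀ (Y a A M₂ M₃ t₂ t₃ : ℝ) (α c : O → ℂ), 2 ≤ Y →
    Y ^ (-η) ≤ a → a ≤ 1 → Y ^ (1 / 2 - η) ≤ A → A ≤ Y ^ (1 / 2 + η) →
    Y ^ (165 / 1000 : ℝ) ≤ M₂ → Y ^ (165 / 1000 : ℝ) ≤ M₃ → Supp α A (2 * A) → Dv k α → Dv k c →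
    ‖∑ x ∈ ball (2 * A), ∑ n₀ ∈ pball Y, ∑ n₂ ∈ pball Y, ∑ n₃ ∈ pball Y,
        α x * c n₀ * pl l M₂ t₂ n₂ * pl l M₃ t₃ n₃ * f0 (x * n₀ * n₂ * n₃) *
          (LW a Y (nm (x * n₀ * n₂ * n₃)) : ℂ)‖ ≤ C * (1 + |t₂| + |t₃|) ^ C * Y ^ (5 / 6 - δ)

/-- Block BH (`StBil → StRam → StBa → StBb → StBar`): rough columns at the barrier. -/
def StBar : Prop :=
  ∀ l : ℤ, ∃ η : ℝ, 0 < η ∧ η ≤ 1 / 1000 ∧ ∀ (κ k : ℕ) (C₃ : ℝ), 1 ≤ κ → ∃ C : ℝ,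
    ∀ (Y a A y : ℝ) (α : O → ℂ), 2 ≤ Y → Y ^ (-η) ≤ a → a ≤ 1 → Y ^ (1 / 2 - η) ≤ A →
    A ≤ Y ^ (1 / 2 + η) → Y ^ (15 / 100 : ℝ) ≤ y → y ≤ Y → Supp α A (2 * A) → Dv k α →
    ‖Bil a Y α (fun m => (gy κ y m : ℂ) * al m ^ l) (2 * A) Y‖ ≤ C * Y ^ (5 / 6 : ℝ) / Real.log Y ^ C₃

/-- Block SI (`StT1 → StBil → StHi → StBar → StRam → StP`): the smoothed prime sum. -/
def StP : Prop :=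
  ∀ l : ℤ, ∃ C : ℝ, ∀ Y a : ℝ, 2 ≤ Y → Y ^ (-(17 / 100) : ℝ) ≤ a → a ≤ 1 →
    ‖PW l a Y‖ ≤ C * Y ^ (5 / 6 : ℝ) *
      (Real.sqrt a / Real.log Y ^ (3 / 2 : ℝ) + 1 / Real.log Y ^ (3 : ℝ))

/-- Block US (`StP → StMain`): the sharp prime sum. -/
def StMain : Prop :=
  ∀ l : ℤ, ∃ C : ℝ, ∀ X : ℝ, 2 ≤ X →
    ‖∑ p ∈ qball X, al p ^ l * f0 p‖ ≤ C * X ^ (5 / 6 : ℝ) / Real.log X ^ (3 / 2 : ℝ)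

end Crest.Agent.R12
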