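import Crest.Agent.R17.A.All

/-!
Row 12 (S0013, S0014; Patterson's conjecture): shared definitions.  FROZEN (owner: helper4).
Blueprint: notes12/R12.md.  Everything is written over the row 17 definitions (`R17.Defs`, `R17.A.All`).
-/

set_option autoImplicit false

namespace Crest.Agent.R12

open Crest.Agent.R17
open scoped ComplexConjugate

/-- the normalised cubic Gauss sum in the convention of the statements -/
noncomputable def GG (c : O) : ℂ := conj (cb lam c) * g3 c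

/-- the theta coefficient: `TC (c b³) = GG c · |b|` -/
noncomputable def TC (n : O) : ℂ := conj (cb lam n * tau0 n)

/-- Patterson's constant -/
noncomputable def cP : ℝ := (2 * Real.pi) ^ ((2 : ℝ) / 3) / (3 * Real.Gamma (2 / 3))

/-- the density of the primary elements -/
noncomputable def rho0 : ℝ := 2 * Real.pi / (9 * Real.sqrt 3)

/-- `N(n)^(-1/6)` -/
noncomputable def n6 (n : O) : ℝ := nm n ^ (-(1 : ℝ) / 6)

/-- primary and squarefree -/
def PSq (n : O) : Prop := Prim n ∧ Squarefree n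

/-- cubes -/
def Cube (k : O) : Prop := ∃ m : O, k = m ^ 3

open Classical in
/-- primary elements of norm at most `X` -/
noncomputable def pball (X : ℝ) : Finset O := (ball X).filter Prim

open Classical in
/-- primary squarefree elements of norm at most `X` -/
noncomputable def sball (X : ℝ) : Finset O := (ball X).filter PSq

open Classical in
/-- primary primes of norm at most `X` -/
noncomputable def qball (X : ℝ) : Finset O := (ball X).filter fun p => Prime p ∧ Prim p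

open Classical in
/-- the defect `μ²(n) (G(n) - c N(n)^(-1/6))` -/
noncomputable def f0 (n : O) : ℂ := if PSq n then GG n - ((cP * n6 n : ℝ) : ℂ) else 0

/-- the number of primary divisors -/
noncomputable def dn (n : O) : ℝ := ((pdiv n).card : ℝ)

/-- `φ(rad h) / N(rad h)` -/
noncomputable def Phi (h : O) : ℝ := ∏ p ∈ pfs h, (1 - (nm p)⁻¹)

/-- the untwisted log-normal weight as a real number (`LN a Y 0 x = LW a Y x`) -/
noncomputable def LW (a Y x : ℝ) : ℝ := Real.exp (-(Real.log (x / Y) ^ 2 / (2 * a ^ 2)))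

/-- supported on primary squarefree elements of norm in `(B, X]` -/
def Supp (γ : O → ℂ) (B X : ℝ) : Prop := ∀ b, γ b ≠ 0 → PSq b ∧ B < nm b ∧ nm b ≤ X

/-- divisor bounded -/
def Dv (k : ℕ) (γ : O → ℂ) : Prop := ∀ b, ‖γ b‖ ≤ dn b ^ k

/-- square norm -/
noncomputable def N2 (γ : O → ℂ) (X : ℝ) : ℝ := ∑ b ∈ ball X, ‖γ b‖ ^ 2

/-- square norm with divisor weights -/
noncomputable def N2d (γ : O → ℂ) (X : ℝ) : ℝ := ∑ b ∈ ball X, ‖γ b‖ ^ 2 * dn b ^ 4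

/-- the size of the remainder from the cube rows -/
noncomputable def CR (γ : O → ℂ) (X : ℝ) : ℝ :=
  ∑ g ∈ sball X, nm g ^ (1 / 4 : ℝ) * dn g * (∑ n ∈ ball X, ‖γ (g * n)‖ * dn n) ^ 2

/-- the same on the line `Re s = 1/20` -/
noncomputable def CR2 (γ : O → ℂ) (X : ℝ) : ℝ :=
  ∑ g ∈ sball X, nm g ^ (17 / 20 : ℝ) * dn g * (∑ n ∈ ball X, ‖γ (g * n)‖ * dn n) ^ 2

/-- the column sum of row `x` -/
noncomputable def XG (γ : O → ℂ) (X : ℝ) (x : O) : ℂ := ∑ b ∈ ball X, γ b * GG b * conj (cb x b)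

open Classical in
/-- the column sum of the model -/
noncomputable def YM (γ : O → ℂ) (X : ℝ) (x : O) : ℂ :=
  ∑ b ∈ ball X, if IsCoprime b x then γ b * (n6 b : ℂ) else 0

/-- the model of `XG` -/
noncomputable def Md (γ : O → ℂ) (X : ℝ) (x : O) : ℂ :=
  ((cP * n6 x : ℝ) : ℂ) * conj (TC x) * YM γ X x

/-- energy over all primary rows, localised at `A` with relative width `a` -/
noncomputable def EN (a A : ℝ) (γ : O → ℂ) (X : ℝ) : ℝ :=
  ∑' x : Pr, LW a A (nm x) * ‖XG γ X x‖ ^ 2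

/-- variance over all primary rows -/
noncomputable def VR (a A : ℝ) (γ : O → ℂ) (X : ℝ) : ℝ :=
  ∑' x : Pr, LW a A (nm x) * ‖XG γ X x - Md γ X x‖ ^ 2

/-- the main term of the energy -/
noncomputable def MN (a A : ℝ) (γ : O → ℂ) (X : ℝ) : ℂ :=
  ((cP ^ 2 * rho0 * A ^ (2 / 3 : ℝ) : ℝ) : ℂ) * LNt a (2 / 3) *
    ∑ b₁ ∈ ball X, ∑ b₂ ∈ ball X, γ b₁ * conj (γ b₂) * ((n6 b₁ * n6 b₂ * Phi (b₁ * b₂) : ℝ) : ℂ)

/-- the dual column sum with label `l`, row `k h`, twist `z` -/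
noncomputable def RS (γ : O → ℂ) (X B : ℝ) (l h k : O) (z : ℂ) : ℂ :=
  ∑ n ∈ ball X, γ (l * n) * cb (k * h) n * ((nm (l * n) / B : ℝ) : ℂ) ^ z

/-- a bound for the dual rows `k` with `ok (k h)` -/
def RowBd (ok : O → Prop) (γ : O → ℂ) (X B K : ℝ) (ν : ℕ) (φ₁ φ₂ : O → ℝ) : Prop :=
  ∀ (l h : O) (U : ℝ) (z : ℂ) (S : Finset O), PSq l → nm l ≤ X → Prim h → h ∣ l ^ 4 → 1 ≤ U →
    |z.re| ≤ 3 → (∀ k ∈ S, k ≠ 0 ∧ nm k ≤ U ∧ ok (k * h)) →
    ∑ k ∈ S, ‖RS γ X B l h k z‖ ^ 2 ≤ (1 + |z.im|) ^ ν *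
      (φ₁ l * (U / K) ^ (1 / 3 : ℝ) + φ₂ l * ((U / K) ^ (1 / 2 : ℝ) + (U / K) ^ (5 / 2 : ℝ)))

/-- the resulting off-diagonal bound -/
noncomputable def OD (a A B X : ℝ) (ν : ℕ) (φ₁ φ₂ : O → ℝ) : ℝ :=
  (a ^ ν)⁻¹ * (a * A / B) * ∑ l ∈ sball X, dn l ^ 2 * (nm l ^ (1 / 3 : ℝ) * φ₁ l + φ₂ l)

/-- the bilinear form -/
noncomputable def Bil (a Y : ℝ) (α γ : O → ℂ) (XA XB : ℝ) : ℂ :=
  ∑ x ∈ ball XA, ∑ b ∈ ball XB, α x * γ b * f0 (x * b) * (LW a Y (nm (x * b)) : ℂ)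

/-- Siegel–Walfisz property of a column sequence -/
def SWH (γ : O → ℂ) (Y L δ : ℝ) : Prop :=
  ∀ (l k m : O) (x : ℝ), Prim l → nm l ≤ L → k ≠ 0 → ¬ Cube k → nm k ≤ L → m ≠ 0 → nm m ≤ Y →
    ‖∑ n ∈ ball x, γ (l * n) * cb (k * m ^ 3) n‖ ≤ δ

/-- bounded variation -/
def BV (ψ : ℕ → ℂ) (K : ℝ) : Prop := ∀ N : ℕ, ‖ψ 0‖ + ∑ n ∈ Finset.range N, ‖ψ (n + 1) - ψ n‖ ≤ K

/-- `β (q b)` is a function of bounded variation of the norm of the prime `q` -/
def BVS (K : ℝ) (k : ℕ) (β : O → ℂ) : Prop :=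
  ∀ b, PSq b → ∃ ψ : ℕ → ℂ, BV ψ (K * dn b ^ k) ∧
    ∀ q, Prime q → Prim q → ¬ q ∣ b → β (q * b) = ψ (nN q)

/-- the smooth sieve weight of a real `x` -/
noncomputable def gx (κ : ℕ) (y x : ℝ) : ℝ := Real.exp (-((y / x) ^ κ))

/-- the smooth sieve weight `∏_{p ∣ m} exp (-(y / N p)^κ)` -/
noncomputable def gy (κ : ℕ) (y : ℝ) (m : O) : ℝ := ∏ p ∈ pfs m, gx κ y (nm p)

/-- a plain variable -/
noncomputable def pl (l : ℤ) (M t : ℝ) (n : O) : ℂ := al n ^ l * LN 1 M t (nm n)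

/-- a plain sum in row `k` -/
noncomputable def PSc (l : ℤ) (k : O) (M t : ℝ) : ℂ := ∑' n : Pr, cb k n * pl l M t n

open Classical in
/-- the smoothed prime sum -/
noncomputable def PW (l : ℤ) (a Y : ℝ) : ℂ :=
  ∑' p : Pr, if Prime (p : O) then al p ^ l * f0 p * (LW a Y (nm p) : ℂ) else 0

end Crest.Agent.R12
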