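import Crest.Agent.R12.TH.Main
import Crest.Agent.R12.T1.Main
import Crest.Agent.R12.T3.Main
import Crest.Agent.R12.RA.Main
import Crest.Agent.R12.PO.Main
import Crest.Agent.R12.LS.Main
import Crest.Agent.R12.AL.Main
import Crest.Agent.R12.DI.Main
import Crest.Agent.R12.BI.Main
import Crest.Agent.R12.HY.Main
import Crest.Agent.R12.HK.Main
import Crest.Agent.R12.HK.PV
import Crest.Agent.R12.QA.Main
import Crest.Agent.R12.QB.Main
import Crest.Agent.R12.BH.Main
import Crest.Agent.R12.SI.Main
import Crest.Agent.R12.US.Main
import Crest.Agent.R12.LK.Main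

/-! Row 12: assembly. -/

set_option autoImplicit false

namespace Crest.Agent.R12

theorem main : StMain :=
  have hLS : StLS := stLS stPO
  have hAll : StAll := stAll hLS
  have hAllG : StAllG := stAllG hAll
  have hL : StL := stL stPO hAll
  have hVar : StVar := stVar stPOc stI0 stT3
  have hBil : StBil := BI.stBil hVar hAll hL
  have hMom : StMom := HK.stMom (stLSG hLS)
  have hBa : StBa := stBa hVar hAll hAllG hMom
  have hBb : StBb := stBb stPOd stT3 hL hAllG hMom stPV hBa
  have hRam : StRam := stRam stSW
  stMain (stP (stT1 stI0) hBil (stHi stPO hL) (stBar hBil hRam hBa hBb) hRam)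

end Crest.Agent.R12
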